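import Crest.Prelude.Def_TwoWay

/-!
Block semantics of a two-way rule table on a word, exit labels, and the product theorem
`beh r (u ++ v) = star (beh r u) (beh r v)`.
A configuration on a block `t` is a pair (state, position); position `0` is just left of the
block, positions `1, …, |t|` are its cells, position `|t| + 1` is just right of it.
Steps are only taken from cells of the block, so runs stop at the two outside positions.
A label is a pair (state, direction), `true` = moving right, `false` = moving left.
-/

namespace Crest.Agent.Lib.TwoWay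

open Crest.TwoWay

universe u v

/-- What the head may do in each state on each scanned symbol. -/
abbrev Rule (β : Type u) (σ : Type v) := σ → β → Set (σ × HeadMove)

/-- The new position after a head move (cells of a block are never at position `0`). -/
def newPos (p : ℕ) : HeadMove → ℕ
  | HeadMove.moveLeft => p - 1
  | HeadMove.stay => p
  | HeadMove.moveRight => p + 1

variable {β : Type u} {σ : Type v}

/-- One step on the block `t`, from a cell of the block. -/
def BStep (r : Rule β σ) (t : List β) (c d : σ × ℕ) : Prop :=
  ∃ (a : β) (m : HeadMove), 1 ≤ c.2 ∧ t[c.2 - 1]? = some a ∧ (d.1, m) ∈ r c.1 a ∧ d.2 = newPos c.2 m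

/-- Reachability on the block. -/
def BReach (r : Rule β σ) (t : List β) : σ × ℕ → σ × ℕ → Prop :=
  Relation.ReflTransGen (BStep r t)

/-- Labels: (state, direction); `true` = moving right. -/
abbrev Label (σ : Type v) := σ × Bool

/-- The configuration in which a run enters the block with a label. -/
def inNode (t : List β) (x : Label σ) : σ × ℕ :=
  if x.2 = true then (x.1, 1) else (x.1, t.length)

/-- The configuration in which a run leaves the block with a label. -/
def outNode (t : List β) (y : Label σ) : σ × ℕ :=
  if y.2 = true then (y.1, t.length + 1) else (y.1, 0)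

/-- Behaviours: relations from entry labels to exit labels. -/
abbrev Beh (σ : Type v) := Label σ → Label σ → Prop

/-- The behaviour of a block. -/
def beh (r : Rule β σ) (t : List β) : Beh σ :=
  fun x y => BReach r t (inNode t x) (outNode t y)

/-- One hop across the cut, from a crossing label to the next crossing label. -/
def hop (X Y : Beh σ) (z z' : Label σ) : Prop :=
  (z.2 = true ∧ z'.2 = false ∧ Y z z') ∨ (z.2 = false ∧ z'.2 = true ∧ X z z')

/-- The first crossing of the cut. -/
def firstCross (X Y : Beh σ) (x z : Label σ) : Prop :=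
  (x.2 = true ∧ z.2 = true ∧ X x z) ∨ (x.2 = false ∧ z.2 = false ∧ Y x z)

/-- The last crossing of the cut. -/
def lastCross (X Y : Beh σ) (z y : Label σ) : Prop :=
  (z.2 = true ∧ y.2 = true ∧ Y z y) ∨ (z.2 = false ∧ y.2 = false ∧ X z y)

/-- No crossing of the cut at all. -/
def noCross (X Y : Beh σ) (x y : Label σ) : Prop :=
  (x.2 = true ∧ y.2 = false ∧ X x y) ∨ (x.2 = false ∧ y.2 = true ∧ Y x y)

/-- The product of behaviours. -/
def star (X Y : Beh σ) : Beh σ := fun x y =>
  noCross X Y x y ∨
    ∃ z z', firstCross X Y x z ∧ Relation.ReflTransGen (hop X Y) z z' ∧ lastCross X Y z' y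

section lemmas

variable (r : Rule β σ) (u w : List β)

lemma BStep_left {c d : σ × ℕ} (h : BStep r u c d) : BStep r (u ++ w) c d := by
  obtain ⟨a, m, h1, h2, h3, h4⟩ := h
  refine ⟨a, m, h1, ?_, h3, h4⟩
  have : c.2 - 1 < u.length := by
    by_contra hh
    rw [List.getElem?_eq_none (by omega)] at h2
    exact absurd h2 (by simp)
  rw [List.getElem?_append_left this]; exact h2

lemma BReach_left {c d : σ × ℕ} (h : BReach r u c d) : BReach r (u ++ w) c d := by
  induction h with
  | refl => exact Relation.ReflTransGen.refl
  | tail _ hs ih => exact Relation.ReflTransGen.tail ih (BStep_left r u w hs)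

lemma newPos_shift (p n : ℕ) (hp : 1 ≤ p) (m : HeadMove) :
    newPos (p + n) m = newPos p m + n := by
  cases m <;> simp only [newPos] <;> omega

lemma BStep_right {c d : σ × ℕ} (h : BStep r w c d) :
    BStep r (u ++ w) (c.1, c.2 + u.length) (d.1, d.2 + u.length) := by
  obtain ⟨a, m, h1, h2, h3, h4⟩ := h
  refine ⟨a, m, ?_, ?_, h3, ?_⟩
  · simp only; omega
  · simp only
    have e : c.2 + u.length - 1 = u.length + (c.2 - 1) := by omega
    rw [e, List.getElem?_append_right (by omega)]
    simpa using h2
  · simp only; rw [newPos_shift _ _ h1, h4]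

lemma BReach_right {c d : σ × ℕ} (h : BReach r w c d) :
    BReach r (u ++ w) (c.1, c.2 + u.length) (d.1, d.2 + u.length) := by
  induction h with
  | refl => exact Relation.ReflTransGen.refl
  | tail _ hs ih => exact Relation.ReflTransGen.tail ih (BStep_right r u w hs)

end lemmas

section product

variable (r : Rule β σ) (u w : List β)

/-- The cut node of a crossing label in `u ++ w`. -/
def cutNode (u : List β) (z : Label σ) : σ × ℕ :=
  if z.2 = true then (z.1, u.length + 1) else (z.1, u.length)

/-- The X-segments (in `u`) embed. -/
private lemma seg_u_cross {z z' : Label σ} (hz : z.2 = false) (hz' : z'.2 = true)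
    (h : beh r u z z') : BReach r (u ++ w) (cutNode u z) (cutNode u z') := by
  have := BReach_left r u w h
  simpa [inNode, outNode, cutNode, hz, hz'] using this

private lemma seg_w_cross {z z' : Label σ} (hz : z.2 = true) (hz' : z'.2 = false)
    (h : beh r w z z') : BReach r (u ++ w) (cutNode u z) (cutNode u z') := by
  have := BReach_right r u w h
  have e : 1 + u.length = u.length + 1 := by omega
  simpa [inNode, outNode, cutNode, hz, hz', e] using this

lemma hop_reach {z z' : Label σ} (h : Relation.ReflTransGen (hop (beh r u) (beh r w)) z z') :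
    BReach r (u ++ w) (cutNode u z) (cutNode u z') := by
  induction h with
  | refl => exact Relation.ReflTransGen.refl
  | tail _ hs ih =>
    refine Relation.ReflTransGen.trans ih ?_
    rcases hs with ⟨h1, h2, h3⟩ | ⟨h1, h2, h3⟩
    · exact seg_w_cross r u w h1 h2 h3
    · exact seg_u_cross r u w h1 h2 h3

lemma first_reach {x z : Label σ} (h : firstCross (beh r u) (beh r w) x z) :
    BReach r (u ++ w) (inNode (u ++ w) x) (cutNode u z) := by
  rcases h with ⟨h1, h2, h3⟩ | ⟨h1, h2, h3⟩
  · have := BReach_left r u w h3
    simpa [inNode, outNode, cutNode, h1, h2] using this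
  · have := BReach_right r u w h3
    simpa [inNode, outNode, cutNode, h1, h2, add_comm] using this

lemma last_reach {z y : Label σ} (h : lastCross (beh r u) (beh r w) z y) :
    BReach r (u ++ w) (cutNode u z) (outNode (u ++ w) y) := by
  rcases h with ⟨h1, h2, h3⟩ | ⟨h1, h2, h3⟩
  · have := BReach_right r u w h3
    have e : 1 + u.length = u.length + 1 := by omega
    have e2 : w.length + 1 + u.length = u.length + w.length + 1 := by omega
    simpa [inNode, outNode, cutNode, h1, h2, e, e2] using this
  · have := BReach_left r u w h3
    simpa [inNode, outNode, cutNode, h1, h2] using this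

lemma no_reach {x y : Label σ} (h : noCross (beh r u) (beh r w) x y) :
    BReach r (u ++ w) (inNode (u ++ w) x) (outNode (u ++ w) y) := by
  rcases h with ⟨h1, h2, h3⟩ | ⟨h1, h2, h3⟩
  · have := BReach_left r u w h3
    simpa [inNode, outNode, h1, h2] using this
  · have := BReach_right r u w h3
    have e2 : w.length + 1 + u.length = u.length + w.length + 1 := by omega
    simpa [inNode, outNode, h1, h2, e2, add_comm] using this

/-- One direction of the product theorem. -/
lemma star_imp_beh {x y : Label σ} (h : star (beh r u) (beh r w) x y) :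
    beh r (u ++ w) x y := by
  rcases h with h | ⟨z, z', h1, h2, h3⟩
  · exact no_reach r u w h
  · exact (first_reach r u w h1).trans ((hop_reach r u w h2).trans (last_reach r u w h3))

/-- The invariant of a run on `u ++ w` from the entry label `x`. -/
def RunInv (x : Label σ) (c : σ × ℕ) : Prop :=
  (c.2 ≤ u.length ∧ ∃ e : Label σ,
      ((x.2 = true ∧ e = x) ∨ (e.2 = false ∧ ∃ z, firstCross (beh r u) (beh r w) x z ∧
        Relation.ReflTransGen (hop (beh r u) (beh r w)) z e)) ∧
      BReach r u (inNode u e) c) ∨
  (u.length < c.2 ∧ ∃ e : Label σ,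
      ((x.2 = false ∧ e = x) ∨ (e.2 = true ∧ ∃ z, firstCross (beh r u) (beh r w) x z ∧
        Relation.ReflTransGen (hop (beh r u) (beh r w)) z e)) ∧
      BReach r w (inNode w e) (c.1, c.2 - u.length))

private lemma beh_nil_right (r : Rule β σ) (x : Label σ) (hx : x.2 = true) : beh r ([] : List β) x x := by
  simp [beh, inNode, outNode, hx]; exact Relation.ReflTransGen.refl

private lemma beh_nil_left (r : Rule β σ) (x : Label σ) (hx : x.2 = false) : beh r ([] : List β) x x := by
  simp [beh, inNode, outNode, hx]; exact Relation.ReflTransGen.refl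

lemma RunInv_init (x : Label σ) : RunInv r u w x (inNode (u ++ w) x) := by
  cases hx : x.2 with
  | true =>
    rcases Nat.eq_zero_or_pos u.length with h0 | h0
    · have hu : u = [] := List.length_eq_zero_iff.mp h0
      subst hu
      right
      refine ⟨by simp [inNode, hx], x, Or.inr ⟨hx, x, Or.inl ⟨hx, hx, beh_nil_right r x hx⟩,
        Relation.ReflTransGen.refl⟩, ?_⟩
      simp [inNode, hx]; exact Relation.ReflTransGen.refl
    · left
      refine ⟨by simp [inNode, hx]; omega, x, Or.inl ⟨hx, rfl⟩, ?_⟩
      simp [inNode, hx]; exact Relation.ReflTransGen.refl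
  | false =>
    rcases Nat.eq_zero_or_pos w.length with h0 | h0
    · have hw : w = [] := List.length_eq_zero_iff.mp h0
      subst hw
      left
      refine ⟨by simp [inNode, hx], x, Or.inr ⟨hx, x, Or.inr ⟨hx, hx, beh_nil_left r x hx⟩,
        Relation.ReflTransGen.refl⟩, ?_⟩
      simp [inNode, hx]; exact Relation.ReflTransGen.refl
    · right
      refine ⟨by simp [inNode, hx]; omega, x, Or.inl ⟨hx, rfl⟩, ?_⟩
      have e : u.length + w.length - u.length = w.length := by omega
      simp [inNode, hx, e]; exact Relation.ReflTransGen.refl

lemma RunInv_step {x : Label σ} {c d : σ × ℕ} (hc : RunInv r u w x c)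
    (hs : BStep r (u ++ w) c d) : RunInv r u w x d := by
  obtain ⟨a, m, h1, h2, h3, h4⟩ := hs
  rcases hc with ⟨hle, e, he, hreach⟩ | ⟨hlt, e, he, hreach⟩
  · -- on the left block
    have hidx : c.2 - 1 < u.length := by omega
    rw [List.getElem?_append_left hidx] at h2
    have hstep : BStep r u c d := ⟨a, m, h1, h2, h3, h4⟩
    have hreach' := Relation.ReflTransGen.tail hreach hstep
    have hd : d.2 ≤ u.length + 1 := by
      rw [h4]; cases m <;> simp only [newPos] <;> omega
    rcases Nat.lt_or_ge u.length d.2 with hlt | hle'
    · -- crossing to the right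
      have hd' : d.2 = u.length + 1 := by omega
      right
      refine ⟨hlt, (d.1, true), Or.inr ⟨rfl, ?_⟩, ?_⟩
      · have hb : beh r u e (d.1, true) := by
          simp only [beh, outNode]
          simp only [if_true]
          have : d = (d.1, u.length + 1) := by rw [← hd']
          rw [← this]; exact hreach'
        rcases he with ⟨hx, rfl⟩ | ⟨he2, z, hz, hch⟩
        · exact ⟨(d.1, true), Or.inl ⟨hx, rfl, hb⟩, Relation.ReflTransGen.refl⟩
        · exact ⟨z, hz, Relation.ReflTransGen.tail hch (Or.inr ⟨he2, rfl, hb⟩)⟩
      · have : d.2 - u.length = 1 := by omega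
        simp [inNode, this]; exact Relation.ReflTransGen.refl
    · left; exact ⟨hle', e, he, hreach'⟩
  · -- on the right block
    have hidx : u.length ≤ c.2 - 1 := by omega
    rw [List.getElem?_append_right hidx] at h2
    set p := c.2 - u.length with hp
    have hp1 : 1 ≤ p := by omega
    have hcp : c.2 = p + u.length := by omega
    have hnp : d.2 = newPos p m + u.length := by rw [h4, hcp, newPos_shift _ _ hp1]
    have hstep : BStep r w (c.1, p) (d.1, newPos p m) := by
      refine ⟨a, m, hp1, ?_, h3, rfl⟩
      have e : p - 1 = c.2 - 1 - u.length := by omega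
      simpa [e] using h2
    have hreach' := Relation.ReflTransGen.tail hreach hstep
    rcases Nat.lt_or_ge u.length d.2 with hlt' | hle'
    · right
      refine ⟨hlt', e, he, ?_⟩
      have : d.2 - u.length = newPos p m := by omega
      rw [this]; exact hreach'
    · have hz : newPos p m = 0 := by omega
      have hdu : d.2 = u.length := by omega
      left
      refine ⟨hle', (d.1, false), Or.inr ⟨rfl, ?_⟩, ?_⟩
      · have hb : beh r w e (d.1, false) := by
          simp only [beh, outNode]
          simp only [Bool.false_eq_true, if_false]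
          rw [← hz]; exact hreach'
        rcases he with ⟨hx, rfl⟩ | ⟨he2, z, hz', hch⟩
        · exact ⟨(d.1, false), Or.inr ⟨hx, rfl, hb⟩, Relation.ReflTransGen.refl⟩
        · exact ⟨z, hz', Relation.ReflTransGen.tail hch (Or.inl ⟨he2, rfl, hb⟩)⟩
      · have : d = (d.1, u.length) := by rw [← hdu]
        simp only [inNode, Bool.false_eq_true, if_false]
        rw [← this]; exact Relation.ReflTransGen.refl

lemma RunInv_reach {x : Label σ} {d : σ × ℕ}
    (h : BReach r (u ++ w) (inNode (u ++ w) x) d) : RunInv r u w x d := by
  induction h with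
  | refl => exact RunInv_init r u w x
  | tail _ hs ih => exact RunInv_step r u w ih hs

/-- The other direction of the product theorem. -/
lemma beh_imp_star {x y : Label σ} (h : beh r (u ++ w) x y) : star (beh r u) (beh r w) x y := by
  have hinv := RunInv_reach r u w h
  cases hy : y.2 with
  | true =>
    have hout : outNode (u ++ w) y = (y.1, u.length + w.length + 1) := by
      simp [outNode, hy]
    rw [hout] at hinv
    rcases hinv with ⟨hle, _⟩ | ⟨_, e, he, hreach⟩
    · simp at hle
    · have hb : beh r w e y := by
        simp only [beh, outNode, hy, if_true]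
        have : u.length + w.length + 1 - u.length = w.length + 1 := by omega
        simpa [this] using hreach
      rcases he with ⟨hx, rfl⟩ | ⟨he2, z, hz, hch⟩
      · exact Or.inl (Or.inr ⟨hx, hy, hb⟩)
      · exact Or.inr ⟨z, e, hz, hch, Or.inl ⟨he2, hy, hb⟩⟩
  | false =>
    have hout : outNode (u ++ w) y = (y.1, 0) := by
      simp [outNode, hy]
    rw [hout] at hinv
    rcases hinv with ⟨_, e, he, hreach⟩ | ⟨hlt, _⟩
    · have hb : beh r u e y := by
        simp only [beh, outNode, hy, Bool.false_eq_true, if_false]
        exact hreach
      rcases he with ⟨hx, rfl⟩ | ⟨he2, z, hz, hch⟩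
      · exact Or.inl (Or.inl ⟨hx, hy, hb⟩)
      · exact Or.inr ⟨z, e, hz, hch, Or.inr ⟨he2, hy, hb⟩⟩
    · simp at hlt

/-- **The product theorem.** -/
theorem beh_append : beh r (u ++ w) = star (beh r u) (beh r w) := by
  funext x y
  exact propext ⟨beh_imp_star r u w, star_imp_beh r u w⟩

end product

end Crest.Agent.Lib.TwoWay
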