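import Crest.Agent.Lib.TwoWay.Block

/-!
The explicit machines for the one-way liveness language, and the normal form of an arbitrary
machine with one extra state (`none`): acceptance = the run from the start label exits the whole
tape at the right in the state `none`.
-/

namespace Crest.Agent.Lib.TwoWay

open Crest.TwoWay

universe u v

/-! ### wordRel -/

lemma wordRel_append {h : ℕ} (u w : List (Fin h → Fin h → Bool)) (a c : Fin h) :
    wordRel (u ++ w) a c ↔ ∃ b, wordRel u a b ∧ wordRel w b c := by
  induction u generalizing a with
  | nil => simp [wordRel]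
  | cons R u ih =>
    simp only [List.cons_append, wordRel, ih]
    constructor
    · rintro ⟨b, h1, d, h2, h3⟩; exact ⟨d, ⟨b, h1, h2⟩, h3⟩
    · rintro ⟨d, ⟨b, h1, h2⟩, h3⟩; exact ⟨b, h1, d, h2, h3⟩

lemma wordRel_singleton {h : ℕ} (R : Fin h → Fin h → Bool) (a c : Fin h) :
    wordRel [R] a c ↔ R a c = true := by
  simp [wordRel]

/-! ### The explicit machine -/

section live

variable (h m : ℕ) (hm : h + 2 ≤ m)

/-- The machine: guess a source on the left endmarker, walk right following the relations, and
accept on the right endmarker. -/
def liveMachine : TwoWayNFA (Fin h → Fin h → Bool) (Fin m) where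
  start := ⟨h, by omega⟩
  accept := {⟨h + 1, by omega⟩}
  step q c :=
    match c with
    | Cell.leftEnd =>
        {p | q = ⟨h, by omega⟩ ∧ ∃ a : Fin h, p = (⟨a, by omega⟩, HeadMove.moveRight)}
    | Cell.letter R =>
        {p | ∃ a b : Fin h, q = ⟨a, by omega⟩ ∧ R a b = true ∧ p = (⟨b, by omega⟩, HeadMove.moveRight)}
    | Cell.rightEnd =>
        {p | ∃ a : Fin h, q = ⟨a, by omega⟩ ∧ p = (⟨h + 1, by omega⟩, HeadMove.stay)}

lemma liveMachine_noLeft : (liveMachine h m hm).NoLeftMoves := by
  intro q c p hp hl
  cases c with
  | leftEnd => obtain ⟨_, a, rfl⟩ := hp; simp at hl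
  | letter R => obtain ⟨a, b, _, _, rfl⟩ := hp; simp at hl
  | rightEnd => obtain ⟨a, _, rfl⟩ := hp; simp at hl

lemma scan_letter {α : Type*} (w : List α) (k : ℕ) (hk : k < w.length) :
    scan w (k + 1) = Cell.letter w[k] := by
  simp [scan, hk]

lemma scan_right {α : Type*} (w : List α) : scan w (w.length + 1) = Cell.rightEnd := by
  simp [scan]

/-- Forward: a path gives a run up to the position of any prefix. -/
lemma live_reach (w : List (Fin h → Fin h → Bool)) (a : Fin h) :
    ∀ (k : ℕ) (_ : k ≤ w.length) (b : Fin h), wordRel (w.take k) a b →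
      Relation.ReflTransGen ((liveMachine h m hm).Step w)
        ((liveMachine h m hm).start, 0) (⟨b, by omega⟩, k + 1) := by
  intro k
  induction k with
  | zero =>
    intro _ b hb
    simp only [List.take_zero, wordRel] at hb
    subst hb
    refine Relation.ReflTransGen.single ?_
    refine ⟨HeadMove.moveRight, ?_, ?_⟩
    · simp only [scan, if_true]
      exact ⟨rfl, a, rfl⟩
    · simp [movePos]
  | succ k ih =>
    intro hk b hb
    have hk' : k < w.length := by omega
    rw [List.take_succ_eq_append_getElem hk', wordRel_append] at hb
    obtain ⟨d, h1, h2⟩ := hb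
    rw [wordRel_singleton] at h2
    refine Relation.ReflTransGen.tail (ih (by omega) d h1) ?_
    refine ⟨HeadMove.moveRight, ?_, ?_⟩
    · simp only [scan_letter w k hk']
      exact ⟨d, b, rfl, h2, rfl⟩
    · simp only [movePos]; rw [if_neg (by omega)]

/-- Backward invariant of runs of the machine. -/
lemma live_inv (w : List (Fin h → Fin h → Bool)) (c : Fin m × ℕ)
    (hc : Relation.ReflTransGen ((liveMachine h m hm).Step w)
        ((liveMachine h m hm).start, 0) c) :
    (c.1 = (liveMachine h m hm).start ∧ c.2 = 0) ∨
    (∃ b : Fin h, c.1 = ⟨b, by omega⟩ ∧ 1 ≤ c.2 ∧ c.2 ≤ w.length + 1 ∧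
      ∃ a, wordRel (w.take (c.2 - 1)) a b) ∨
    (c.1.val = h + 1 ∧ ∃ a b, wordRel w a b) := by
  induction hc with
  | refl => left; exact ⟨rfl, rfl⟩
  | @tail c d _ hs ih =>
    obtain ⟨mv, h1, h2⟩ := hs
    rcases ih with ⟨hc1, hc2⟩ | ⟨b, hc1, hc2, hc3, a, hc4⟩ | ⟨hc1, a, b, hc2⟩
    · -- at the start
      rw [hc2] at h1 h2
      simp only [scan, if_true] at h1
      obtain ⟨_, a0, hp⟩ := h1
      have hp1 : d.1 = ⟨a0, by omega⟩ := by simpa using congrArg Prod.fst hp
      have hp2 : mv = HeadMove.moveRight := by simpa using congrArg Prod.snd hp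
      subst hp2
      simp only [movePos] at h2
      rw [if_neg (by omega)] at h2
      have hd : d.2 = 1 := by simpa using h2.symm
      right; left
      refine ⟨a0, hp1, by omega, by omega, a0, ?_⟩
      simp [hd, wordRel]
    · -- at a point
      rcases Nat.lt_or_ge (c.2 - 1) w.length with hlt | hge
      · have hsc : scan w c.2 = Cell.letter w[c.2 - 1] := by
          have : c.2 = (c.2 - 1) + 1 := by omega
          conv_lhs => rw [this]
          exact scan_letter w _ hlt
        rw [hsc] at h1
        obtain ⟨a1, b1, hq, hR, hp⟩ := h1
        have hab : a1 = b := by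
          rw [hc1] at hq
          have := congrArg Fin.val hq
          exact Fin.ext (by simpa using this.symm)
        subst hab
        have hp1 : d.1 = ⟨b1, by omega⟩ := by simpa using congrArg Prod.fst hp
        have hp2 : mv = HeadMove.moveRight := by simpa using congrArg Prod.snd hp
        subst hp2
        simp only [movePos] at h2
        rw [if_neg (by omega)] at h2
        have hd : d.2 = c.2 + 1 := by simpa using h2.symm
        right; left
        refine ⟨b1, hp1, by omega, by omega, a, ?_⟩
        have e : d.2 - 1 = (c.2 - 1) + 1 := by omega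
        rw [e, List.take_succ_eq_append_getElem hlt, wordRel_append]
        exact ⟨a1, hc4, (wordRel_singleton _ _ _).2 hR⟩
      · have hc2' : c.2 = w.length + 1 := by omega
        have hsc : scan w c.2 = Cell.rightEnd := by rw [hc2']; exact scan_right w
        rw [hsc] at h1
        obtain ⟨a1, hq, hp⟩ := h1
        right; right
        have hp1 : d.1 = ⟨h + 1, by omega⟩ := by simpa using congrArg Prod.fst hp
        refine ⟨by simp [hp1], a, b, ?_⟩
        have : w.take (c.2 - 1) = w := by
          apply List.take_of_length_le; omega
        rwa [this] at hc4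
    · -- at the accepting state: no rule applies
      exfalso
      cases hsc : scan w c.2 with
      | leftEnd =>
        rw [hsc] at h1
        obtain ⟨hq, _⟩ := h1
        have := congrArg Fin.val hq
        simp at this; omega
      | letter R =>
        rw [hsc] at h1
        obtain ⟨a1, b1, hq, _⟩ := h1
        have := congrArg Fin.val hq
        simp at this; omega
      | rightEnd =>
        rw [hsc] at h1
        obtain ⟨a1, hq, _⟩ := h1
        have := congrArg Fin.val hq
        simp at this; omega

theorem liveMachine_language : (liveMachine h m hm).language = liveness h := by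
  ext w
  constructor
  · rintro ⟨c, hc, hacc⟩
    rcases live_inv h m hm w c hc with ⟨h1, _⟩ | ⟨b, h1, _⟩ | ⟨_, h2⟩
    · exfalso
      rw [h1] at hacc
      have : (liveMachine h m hm).start = ⟨h + 1, by omega⟩ := hacc
      have := congrArg Fin.val this
      simp [liveMachine] at this
    · exfalso
      rw [h1] at hacc
      have : (⟨b, by omega⟩ : Fin m) = ⟨h + 1, by omega⟩ := hacc
      have := congrArg Fin.val this
      simp at this; omega
    · exact h2
  · rintro ⟨a, b, hab⟩
    have h1 := live_reach h m hm w a w.length le_rfl b (by simpa using hab)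
    refine ⟨(⟨h + 1, by omega⟩, w.length + 1), Relation.ReflTransGen.tail h1 ?_, rfl⟩
    refine ⟨HeadMove.stay, ?_, by simp [movePos]⟩
    simp only [scan_right]
    exact ⟨b, rfl, rfl⟩

end live

/-! ### The normal form -/

section normal

variable {α : Type u} {σ : Type v} (B : TwoWayNFA α σ)

/-- The tape of a word. -/
def tape (w : List α) : List (Cell α) :=
  Cell.leftEnd :: (w.map Cell.letter ++ [Cell.rightEnd])

lemma tape_length (w : List α) : (tape w).length = w.length + 2 := by
  simp [tape]

lemma tape_get (w : List α) (i : ℕ) (hi : i ≤ w.length + 1) : (tape w)[i]? = some (scan w i) := by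
  rcases Nat.eq_zero_or_pos i with rfl | hpos
  · simp [tape, scan]
  · obtain ⟨k, rfl⟩ : ∃ k, i = k + 1 := ⟨i - 1, by omega⟩
    simp only [tape, List.getElem?_cons_succ]
    rcases Nat.lt_or_ge k w.length with hk | hk
    · rw [List.getElem?_append_left (by simpa using hk)]
      simp [scan, hk]
    · have hk' : k = w.length := by omega
      subst hk'
      rw [List.getElem?_append_right (by simp)]
      simp [scan]

lemma tape_get_none (w : List α) (i : ℕ) (hi : w.length + 1 < i) : (tape w)[i]? = none := by
  apply List.getElem?_eq_none
  rw [tape_length]; omega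

/-- The normal form of a machine: state `none` runs to the right off the tape. -/
def normRule : Rule (Cell α) (Option σ) := fun q c =>
  match q with
  | none => {p | p = (none, HeadMove.moveRight)}
  | some q => {p | (∃ q' m, (q', m) ∈ B.step q c ∧ p = (some q', m)) ∨
      (q ∈ B.accept ∧ p = (none, HeadMove.moveRight))}

/-- Real runs embed. -/
lemma norm_forward (w : List α) (c : σ × ℕ)
    (hc : Relation.ReflTransGen (B.Step w) (B.start, 0) c) :
    c.2 ≤ w.length + 1 ∧ BReach (normRule B) (tape w) (some B.start, 1) (some c.1, c.2 + 1) := by
  induction hc with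
  | refl => exact ⟨by simp, Relation.ReflTransGen.refl⟩
  | @tail c d _ hs ih =>
    obtain ⟨hle, hr⟩ := ih
    obtain ⟨m, h1, h2⟩ := hs
    have hnew : d.2 ≤ w.length + 1 ∧ newPos (c.2 + 1) m = d.2 + 1 := by
      cases m with
      | moveLeft =>
        simp only [movePos] at h2
        split_ifs at h2 with h0
        have : d.2 = c.2 - 1 := by simpa using h2.symm
        simp only [newPos]; omega
      | stay =>
        simp only [movePos] at h2
        have : d.2 = c.2 := by simpa using h2.symm
        simp only [newPos]; omega
      | moveRight =>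
        simp only [movePos] at h2
        split_ifs at h2 with h0
        have : d.2 = c.2 + 1 := by simpa using h2.symm
        simp only [newPos]; omega
    refine ⟨hnew.1, Relation.ReflTransGen.tail hr ?_⟩
    refine ⟨scan w c.2, m, by simp, ?_, ?_, hnew.2.symm⟩
    · simpa using tape_get w c.2 hle
    · exact Or.inl ⟨d.1, m, h1, rfl⟩

/-- The state `none` runs to the right end. -/
lemma none_run (w : List α) (p : ℕ) (hp1 : 1 ≤ p) (hp2 : p ≤ w.length + 3) :
    BReach (normRule B) (tape w) (none, p) (none, w.length + 3) := by
  obtain ⟨k, hk⟩ : ∃ k, p + k = w.length + 3 := ⟨w.length + 3 - p, by omega⟩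
  induction k generalizing p with
  | zero => simp at hk; subst hk; exact Relation.ReflTransGen.refl
  | succ k ih =>
    refine Relation.ReflTransGen.head ?_ (ih (p + 1) (by omega) (by omega) (by omega))
    refine ⟨scan w (p - 1), HeadMove.moveRight, hp1, ?_, rfl, rfl⟩
    simpa using tape_get w (p - 1) (by omega)

/-- Invariant for the backward direction. -/
lemma norm_backward (w : List α) (d : Option σ × ℕ)
    (hd : BReach (normRule B) (tape w) (some B.start, 1) d) :
    (d.1 = none ∧ B.Accepts w) ∨
    (∃ q, d.1 = some q ∧ ∀ i, d.2 = i + 1 → i ≤ w.length + 1 →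
      Relation.ReflTransGen (B.Step w) (B.start, 0) (q, i)) := by
  induction hd with
  | refl =>
    right
    refine ⟨B.start, rfl, ?_⟩
    intro i hi _
    have : i = 0 := by simpa using hi.symm
    subst this
    exact Relation.ReflTransGen.refl
  | @tail c d _ hs ih =>
    obtain ⟨a, m, h1, h2, h3, h4⟩ := hs
    rcases ih with ⟨hc, hacc⟩ | ⟨q, hc, hq⟩
    · left
      rw [hc] at h3
      have : (d.1, m) = (none, HeadMove.moveRight) := h3
      exact ⟨by simpa using congrArg Prod.fst this, hacc⟩
    · have hi : c.2 - 1 ≤ w.length + 1 := by
        by_contra hh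
        rw [tape_get_none w _ (by omega)] at h2
        exact absurd h2 (by simp)
      have hrun := hq (c.2 - 1) (by omega) hi
      rw [tape_get w _ hi] at h2
      have ha : scan w (c.2 - 1) = a := by simpa using h2
      rw [hc] at h3
      rcases h3 with ⟨q', m', h5, h6⟩ | ⟨h5, h6⟩
      · right
        refine ⟨q', by simpa using congrArg Prod.fst h6, ?_⟩
        have hm : m = m' := by simpa using congrArg Prod.snd h6
        subst hm
        intro i hd' hi'
        refine Relation.ReflTransGen.tail hrun ⟨m, ?_, ?_⟩
        · simpa [ha] using h5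
        · rw [h4] at hd'
          cases m with
          | moveLeft =>
            simp only [newPos] at hd'
            simp only [movePos]
            rw [if_neg (by omega)]
            congr 1; omega
          | stay =>
            simp only [newPos] at hd'
            simp only [movePos]
            congr 1; omega
          | moveRight =>
            simp only [newPos] at hd'
            simp only [movePos]
            rw [if_neg (by omega)]
            congr 1; omega
      · left
        exact ⟨by simpa using congrArg Prod.fst h6, ⟨(q, c.2 - 1), hrun, h5⟩⟩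

/-- **Acceptance = exit at the right in the state `none`.** -/
theorem accepts_iff_beh (w : List α) :
    B.Accepts w ↔ beh (normRule B) (tape w) (some B.start, true) (none, true) := by
  have hin : inNode (tape w) ((some B.start, true) : Label (Option σ)) = (some B.start, 1) := by
    simp [inNode]
  have hout : outNode (tape w) ((none, true) : Label (Option σ)) = (none, w.length + 3) := by
    simp [outNode, tape_length]
  simp only [beh, hin, hout]
  constructor
  · rintro ⟨c, hc, hacc⟩
    obtain ⟨hle, hr⟩ := norm_forward B w c hc
    refine hr.trans (Relation.ReflTransGen.head ?_ (none_run B w (c.2 + 2) (by omega) (by omega)))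
    refine ⟨scan w c.2, HeadMove.moveRight, by simp, ?_, Or.inr ⟨hacc, rfl⟩, rfl⟩
    simpa using tape_get w c.2 hle
  · intro h
    rcases norm_backward B w _ h with ⟨_, hacc⟩ | ⟨q, hq, _⟩
    · exact hacc
    · simp at hq

end normal

end Crest.Agent.Lib.TwoWay
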