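import Crest.Agent.Lib.TwoWay.Machine

/-!
The finite monoid of word behaviours and its morphism to relations: everything the lower bounds
need from a machine recognising the complement of liveness, as a purely algebraic package.
-/

namespace Crest.Agent.Lib.TwoWay

open Crest.TwoWay

universe u v

section monoid

variable {α : Type u} {σ : Type v} (r : Rule (Cell α) σ)

/-- The behaviour of a word, as a block of letter cells. -/
def wordBeh (w : FreeMonoid α) : Beh σ := beh r ((FreeMonoid.toList w).map Cell.letter)

lemma wordBeh_mul (a b : FreeMonoid α) : wordBeh r (a * b) = star (wordBeh r a) (wordBeh r b) := by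
  simp only [wordBeh, FreeMonoid.toList_mul, List.map_append, beh_append]

/-- The identity behaviour. -/
def idBeh : Beh σ := fun x y => x = y

lemma BReach_nil {β : Type*} (r : Rule β σ) {c d : σ × ℕ} (h : BReach r ([] : List β) c d) : c = d := by
  induction h with
  | refl => rfl
  | tail _ hs ih =>
    obtain ⟨a, m, _, h2, _⟩ := hs
    simp at h2

lemma beh_nil {β : Type*} (r : Rule β σ) : beh r ([] : List β) = idBeh := by
  funext x y
  apply propext
  constructor
  · intro h
    have := BReach_nil r h
    rcases x with ⟨x1, x2⟩
    rcases y with ⟨y1, y2⟩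
    cases x2 <;> cases y2 <;> simp_all [inNode, outNode, idBeh]
  · rintro rfl
    rcases x with ⟨x1, x2⟩
    cases x2 <;> simp [beh, inNode, outNode] <;> exact Relation.ReflTransGen.refl

/-- Words with the same behaviour. -/
def behCon : Con (FreeMonoid α) where
  r a b := wordBeh r a = wordBeh r b
  iseqv := ⟨fun _ => rfl, Eq.symm, Eq.trans⟩
  mul' := by
    intro a b c d h1 h2
    simp only [wordBeh_mul]
    rw [h1, h2]

/-- The monoid of word behaviours. -/
abbrev BT := (behCon r).Quotient

variable {r}

/-- The behaviour of an element. -/
def BT.bh (x : BT r) : Beh σ := Con.liftOn x (wordBeh r) (fun _ _ h => h)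

@[simp] lemma BT.bh_coe (w : FreeMonoid α) : BT.bh ((w : BT r)) = wordBeh r w := rfl

lemma BT.bh_mul (x y : BT r) : BT.bh (x * y) = star (BT.bh x) (BT.bh y) := by
  induction x using Con.induction_on with
  | H a =>
    induction y using Con.induction_on with
    | H b =>
      have : ((a : BT r) * (b : BT r)) = ((a * b : FreeMonoid α) : BT r) := rfl
      rw [this, BT.bh_coe, BT.bh_coe, BT.bh_coe, wordBeh_mul]

lemma BT.bh_one : BT.bh (1 : BT r) = idBeh := by
  have : (1 : BT r) = ((1 : FreeMonoid α) : BT r) := rfl
  rw [this, BT.bh_coe]
  simpa [wordBeh] using beh_nil r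

lemma BT.bh_injective : Function.Injective (BT.bh (r := r)) := by
  intro x y
  induction x using Con.induction_on with
  | H a =>
    induction y using Con.induction_on with
    | H b =>
      intro h
      exact (Con.eq (behCon r)).2 h

instance BT.finite [Finite σ] : Finite (BT r) :=
  Finite.of_injective _ BT.bh_injective

end monoid

section liveness

variable {h : ℕ} {σ : Type v}

/-- The test letter: only the pair `(a, a)`. -/
def deltaLetter (a : Fin h) : Fin h → Fin h → Bool := fun p q => decide (p = a ∧ q = a)

lemma live_test (w : List (Fin h → Fin h → Bool)) (a c : Fin h) :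
    ([deltaLetter a] ++ (w ++ [deltaLetter c])) ∈ liveness h ↔ wordRel w a c := by
  constructor
  · rintro ⟨x, y, hxy⟩
    rw [wordRel_append] at hxy
    obtain ⟨b, h1, h2⟩ := hxy
    rw [wordRel_singleton] at h1
    rw [wordRel_append] at h2
    obtain ⟨d, h3, h4⟩ := h2
    rw [wordRel_singleton] at h4
    simp only [deltaLetter, decide_eq_true_eq] at h1 h4
    rw [h1.2] at h3
    rw [← h4.1]
    exact h3
  · intro hw
    refine ⟨a, c, ?_⟩
    rw [wordRel_append]
    refine ⟨a, (wordRel_singleton _ _ _).2 (by simp [deltaLetter]), ?_⟩
    rw [wordRel_append]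
    exact ⟨c, hw, (wordRel_singleton _ _ _).2 (by simp [deltaLetter])⟩

variable (B : TwoWayNFA (Fin h → Fin h → Bool) σ)

/-- Acceptance from the behaviour of the input. -/
def accOf (X : Beh (Option σ)) : Prop :=
  star (beh (normRule B) [Cell.leftEnd]) (star X (beh (normRule B) [Cell.rightEnd]))
    (some B.start, true) (none, true)

lemma accepts_iff_accOf (w : FreeMonoid (Fin h → Fin h → Bool)) :
    B.Accepts (FreeMonoid.toList w) ↔ accOf B (wordBeh (normRule B) w) := by
  rw [accepts_iff_beh]
  have : tape (FreeMonoid.toList w) =
      [Cell.leftEnd] ++ ((FreeMonoid.toList w).map Cell.letter ++ [Cell.rightEnd]) := rfl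
  rw [this, beh_append, beh_append]
  rfl

/-- Equal behaviour implies equal composite relation, for a machine of either language. -/
lemma wordRel_congr {L : Language (Fin h → Fin h → Bool)}
    (hL : L = liveness h ∨ L = (liveness h)ᶜ) (hB : B.language = L)
    (w w' : FreeMonoid (Fin h → Fin h → Bool))
    (hw : wordBeh (normRule B) w = wordBeh (normRule B) w') (a c : Fin h) :
    wordRel (FreeMonoid.toList w) a c ↔ wordRel (FreeMonoid.toList w') a c := by
  have key : ∀ u : FreeMonoid (Fin h → Fin h → Bool),
      (FreeMonoid.toList
        (FreeMonoid.of (deltaLetter a) * (u * FreeMonoid.of (deltaLetter c)))) =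
        [deltaLetter a] ++ (FreeMonoid.toList u ++ [deltaLetter c]) := by
    intro u
    simp [FreeMonoid.toList_mul]
  have hacc : B.Accepts (FreeMonoid.toList
        (FreeMonoid.of (deltaLetter a) * (w * FreeMonoid.of (deltaLetter c)))) ↔
      B.Accepts (FreeMonoid.toList
        (FreeMonoid.of (deltaLetter a) * (w' * FreeMonoid.of (deltaLetter c)))) := by
    rw [accepts_iff_accOf, accepts_iff_accOf]
    simp only [wordBeh_mul, hw]
  rw [key, key] at hacc
  have hmem : ∀ x : List (Fin h → Fin h → Bool), B.Accepts x ↔ x ∈ L := by
    intro x; rw [← hB]; rfl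
  rw [hmem, hmem] at hacc
  rcases hL with rfl | rfl
  · rw [live_test, live_test] at hacc
    exact hacc
  · have h1 := live_test (FreeMonoid.toList w) a c
    have h2 := live_test (FreeMonoid.toList w') a c
    constructor
    · intro hh
      by_contra hn
      have : ¬ ([deltaLetter a] ++ (FreeMonoid.toList w' ++ [deltaLetter c])) ∈ liveness h :=
        fun hm => hn (h2.1 hm)
      exact (hacc.2 this) (h1.2 hh)
    · intro hh
      by_contra hn
      have : ¬ ([deltaLetter a] ++ (FreeMonoid.toList w ++ [deltaLetter c])) ∈ liveness h :=
        fun hm => hn (h1.1 hm)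
      exact (hacc.1 this) (h2.2 hh)

end liveness

/-- **What a machine gives.** All the lower bounds start from this package: a finite monoid `T`
of behaviours on the labels of the normal form, with `star` as product, a morphism `ψ` onto the
relations on `Fin h`, and acceptance read from the behaviour. -/
structure LiveModel (h : ℕ) (σ : Type v) where
  /-- the monoid -/
  T : Type
  /-- its monoid structure -/
  inst : Monoid T
  /-- finiteness, when there are finitely many labels -/
  fin : Finite σ → Finite T
  /-- the behaviour -/
  bh : T → Beh σ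
  /-- the relation -/
  ψ : T → Fin h → Fin h → Prop
  bh_mul : ∀ x y, bh (x * y) = star (bh x) (bh y)
  bh_one : bh 1 = idBeh
  bh_inj : Function.Injective bh
  ψ_mul : ∀ x y a c, ψ (x * y) a c ↔ ∃ b, ψ x a b ∧ ψ y b c
  ψ_one : ψ 1 = Eq
  ψ_surj : ∀ ρ : Fin h → Fin h → Prop, ∃ x, ψ x = ρ
  /-- acceptance is a function of the behaviour -/
  acc : Beh σ → Prop

attribute [instance] LiveModel.inst

section build

variable {h : ℕ} {σ : Type v}

/-- The package of a machine recognising liveness or its complement, and the acceptance law. -/
theorem exists_liveModel (B : TwoWayNFA (Fin h → Fin h → Bool) σ)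
    {L : Language (Fin h → Fin h → Bool)} (hL : L = liveness h ∨ L = (liveness h)ᶜ)
    (hB : B.language = L) :
    ∃ M : LiveModel h (Option σ),
      ∀ (x : M.T), M.acc (M.bh x) ↔
        (L = liveness h ∧ ∃ a c, M.ψ x a c) ∨ (L = (liveness h)ᶜ ∧ ∀ a c, ¬ M.ψ x a c) := by
  classical
  let r := normRule B
  let ψ : BT r → Fin h → Fin h → Prop := fun x a c =>
    Con.liftOn x (fun w => wordRel (FreeMonoid.toList w) a c)
      (fun u w huw => propext (wordRel_congr B hL hB u w huw a c))
  have ψ_coe : ∀ (w : FreeMonoid (Fin h → Fin h → Bool)) a c,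
      ψ (w : BT r) a c ↔ wordRel (FreeMonoid.toList w) a c := fun _ _ _ => Iff.rfl
  let M : LiveModel h (Option σ) :=
    { T := BT r
      inst := inferInstance
      fin := fun hσ => by
        have := hσ
        exact BT.finite
      bh := BT.bh
      ψ := ψ
      bh_mul := BT.bh_mul
      bh_one := BT.bh_one
      bh_inj := BT.bh_injective
      ψ_mul := by
        intro x y a c
        induction x using Con.induction_on with
        | H u =>
          induction y using Con.induction_on with
          | H w =>
            have : ((u : BT r) * (w : BT r)) = ((u * w : FreeMonoid _) : BT r) := rfl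
            rw [this, ψ_coe]
            simp only [ψ_coe, FreeMonoid.toList_mul, wordRel_append]
      ψ_one := by
        funext a c
        have : (1 : BT r) = ((1 : FreeMonoid (Fin h → Fin h → Bool)) : BT r) := rfl
        apply propext
        rw [this, ψ_coe]
        simp [wordRel]
      ψ_surj := by
        intro ρ
        refine ⟨((FreeMonoid.of (fun a c => decide (ρ a c)) : FreeMonoid _) : BT r), ?_⟩
        funext a c
        apply propext
        rw [ψ_coe]
        simp [FreeMonoid.toList_of, wordRel_singleton]
      acc := accOf B }
  refine ⟨M, ?_⟩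
  intro x
  change accOf B (BT.bh x) ↔ _
  change BT r at x
  induction x using Con.induction_on with
  | H w =>
    rw [BT.bh_coe, ← accepts_iff_accOf]
    have hmem : B.Accepts (FreeMonoid.toList w) ↔ FreeMonoid.toList w ∈ L := by
      rw [← hB]; rfl
    rw [hmem]
    change _ ↔ (L = liveness h ∧ ∃ a c, ψ (w : BT r) a c) ∨
      (L = (liveness h)ᶜ ∧ ∀ a c, ¬ ψ (w : BT r) a c)
    simp only [ψ_coe]
    have hne : (liveness h : Language (Fin h → Fin h → Bool)) ≠ (liveness h)ᶜ := by
      intro he
      have h1 : ([] : List (Fin h → Fin h → Bool)) ∈ liveness h ↔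
          ¬ ([] : List (Fin h → Fin h → Bool)) ∈ liveness h := by
        constructor
        · intro hm
          have hm2 : ([] : List (Fin h → Fin h → Bool)) ∈ (liveness h)ᶜ := he ▸ hm
          exact hm2
        · intro hn
          have hm2 : ([] : List (Fin h → Fin h → Bool)) ∈ (liveness h)ᶜ := hn
          rw [← he] at hm2
          exact hm2
      exact iff_not_self h1
    rcases hL with rfl | rfl
    · constructor
      · intro hm; exact Or.inl ⟨rfl, hm⟩
      · rintro (⟨_, hm⟩ | ⟨he, _⟩)
        · exact hm
        · exact absurd he hne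
    · constructor
      · intro hm
        refine Or.inr ⟨rfl, ?_⟩
        intro a c hr
        exact hm ⟨a, c, hr⟩
      · rintro (⟨he, _⟩ | ⟨_, hm⟩)
        · exact absurd he.symm hne
        · rintro ⟨a, c, hr⟩
          exact hm a c hr

end build

end Crest.Agent.Lib.TwoWay
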